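import Mathlib
import Vale.Agent.Lib.P302.Cert
import Vale.Agent.Lib.P302.Inst721.Main

/-!
An explicit bin packing instance with `OPT - LP` at least `721/585`.
-/

namespace Vale.Agent.Results.P302.GapChainFour

open Vale.Agent.Lib.P302

/-- The item sizes of the instance as numerators over the capacity `6813600`. -/
def numerators : List ℕ := [5545400, 5528400, 5494400, 5426400, 4549200, 3408500, 3408500, 3406800, 1686400, 1686400, 1686400, 754800, 754800, 754800, 754800, 625600, 625600, 625600, 693600, 659600, 642600, 634100, 2272020, 2272020, 2272020, 2272020, 2272020, 2272018, 2272017, 2272016, 2272015, 2272014, 2269564, 2269566, 2269570, 2271480, 2271450, 2271390, 2271210, 2271180, 2271060, 2270820, 2270790, 2270670]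

/-- The instance: item sizes `n / 6813600` for `n` in `numerators`. -/
def inst : List ℚ := numerators.map (fun n : ℕ => (n : ℚ) / (6813600 : ℕ))

/-- All sizes lie in `(0, 1]`, and the difference of the optimum and the value of the
Gilmore-Gomory configuration LP is at least `721/585`. -/
theorem result : (∀ a ∈ inst, 0 < a ∧ a ≤ 1) ∧ ((721 : ℝ) / 585 ≤ (OPT inst : ℝ) - LP inst) := by
  have hnp := Inst721.not_packable
  have h := gap_of_cert Inst721.SS 6813600 2340 15 Inst721.ZZ (by norm_num) (by norm_num)
    Inst721.certLP_ok hnp
  have e : numerators = Inst721.SS := by decide +kernel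
  have e2 : ((Inst721.ZZ.map fun p => p.2).sum : ℕ) = 34556 := by decide +kernel
  have e3 : inst = Inst721.SS.map (fun n : ℕ => (n : ℚ) / (6813600 : ℕ)) := by
    unfold inst
    rw [e]
  rw [e3]
  refine ⟨h.1, ?_⟩
  have h2 := h.2
  rw [e2] at h2
  norm_num at h2 ⊢
  linarith

end Vale.Agent.Results.P302.GapChainFour
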