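import Mathlib
import Vale.Agent.Lib.P302.Cert
import Vale.Agent.Lib.P302.Inst119.Main

/-!
An explicit bin packing instance with `OPT - LP` at least `11/9`.
-/

namespace Vale.Agent.Results.P302.GapElevenNinths

open Vale.Agent.Lib.P302

/-- The item sizes of the instance as numerators over the capacity `3406800`. -/
def numerators : List ℕ := [2762500, 2733600, 2293300, 1705100, 1705100, 1703400, 843200, 843200, 357000, 357000, 357000, 357000, 331500, 321300, 312800, 1136420, 1136420, 1136420, 1136418, 1136417, 1136416, 1136415, 1136414, 1133964, 1133966, 1133970, 1135880, 1135850, 1135790, 1135610, 1135580, 1135460, 1135220, 1135190, 1135070]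

/-- The instance: item sizes `n / 3406800` for `n` in `numerators`. -/
def inst : List ℚ := numerators.map (fun n : ℕ => (n : ℚ) / (3406800 : ℕ))

/-- All sizes lie in `(0, 1]`, and the difference of the optimum and the value of the
Gilmore-Gomory configuration LP is at least `11/9`. -/
theorem result : (∀ a ∈ inst, 0 < a ∧ a ≤ 1) ∧ ((11 : ℝ) / 9 ≤ (OPT inst : ℝ) - LP inst) := by
  have hnp := Inst119.not_packable
  have h := gap_of_cert Inst119.SS 3406800 18 12 Inst119.ZZ (by norm_num) (by norm_num)
    Inst119.certLP_ok hnp
  have e : numerators = Inst119.SS := by decide +kernel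
  have e2 : ((Inst119.ZZ.map fun p => p.2).sum : ℕ) = 212 := by decide +kernel
  have e3 : inst = Inst119.SS.map (fun n : ℕ => (n : ℚ) / (3406800 : ℕ)) := by
    unfold inst
    rw [e]
  rw [e3]
  refine ⟨h.1, ?_⟩
  have h2 := h.2
  rw [e2] at h2
  norm_num at h2 ⊢
  linarith

end Vale.Agent.Results.P302.GapElevenNinths
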